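import Vale.Agent.P141.H677.FDb
import Vale.Agent.P141.H782.AffS
import Vale.Agent.P141.H816.FDat

/-!
# P141, line (A), flow part: static masses of the slot function on marked points

`mass_pt` : the function below the killed input times the majorant.
`mass_cube` : mass of a cube at the time `k + 1`.
`mass_S` : masses at the points over a packed family of cubes, time `k + 1`, one `x0` cell.
`mass_rt` : the same over the three cells of the root.
`C_zero` : the time `0`.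
-/

namespace Vale.Agent.P141.H386.MS

open Finset Matrix
open Vale.Agent.P141.PL (Pt iv ix cb cx mem_iv mem_cb)
open Vale.Agent.P141.PL.H315 (Tri)
open Vale.Agent.P141.H48 (BSl)
open Vale.Agent.P141.H460 (GPack)
open Vale.Agent.P141.H43 (nsq nsq_nonneg)
open Vale.Agent.P141.H305 (Cls)
open Vale.Agent.P141.H677 (rt kF)
open Vale.Agent.P141.H677.Sk (Slt FamA FamV FDs)

noncomputable section

open scoped Classical

variable {ι : Type} [Fintype ι] [DecidableEq ι]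

variable {q : H401.Num} {n : ℕ} {ez : ℝ} {F1 F2 F3 : ℕ → Pt → ℝ} {K : ℕ} {x : Pt} {s r P0 : ℝ}
  {U : Tri} {g : ℤ → ℤ → ℝ} {u v : ℤ → ℤ → ι → ℝ} {A : FamA} {b C : FamV ι}
  {Q1 Q2 Q3 : ℕ → Pt → Prop} {v' : ℤ → ℤ → ι → ℝ}

/-- the time `0` -/
theorem C_zero (h : FDs q n ez F1 F2 F3 K x s r U g u v A b C Q1 Q2 Q3 v') (x0 z x' : ℤ) :
    C x0 0 z x' = 0 := by
  rw [h.C_eq]
  unfold H677.kF
  rw [if_pos (Or.inl rfl), zero_smul]

/-- the function below the killed input times the majorant -/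
theorem mass_pt (h : FDs q n ez F1 F2 F3 K x s r U g u v A b C Q1 Q2 Q3 v')
    (hc : Cls K x s r P0 U g u v) (k : ℕ) (x0 : ℤ) {X Z : ℤ} (hX : X ∈ iv K (ix K x.1))
    (hZ : Z ∈ iv K (ix K x.2.2)) :
    nsq (C x0 k Z X) ≤ kF q.Lm U.2.1 K F2 k (x0, X, Z) ^ 2 * U.2.1 (X, Z) ^ 2 := by
  rw [h.C_eq]
  have e : nsq (kF q.Lm U.2.1 K F2 k (x0, X, Z) • v' X Z) =
      kF q.Lm U.2.1 K F2 k (x0, X, Z) ^ 2 * nsq (v' X Z) := by
    unfold H43.nsq
    rw [smul_dotProduct, dotProduct_smul, smul_eq_mul, smul_eq_mul]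
    ring
  rw [e]
  refine mul_le_mul_of_nonneg_left ?_ (sq_nonneg _)
  rcases h.v_or X Z with hv | hv
  · rw [hv]
    have hX' : X ∈ PL.H315.iv K x.1 := by rw [H769.iv_pt]; exact hX
    have hZ' : Z ∈ PL.H315.iv K x.2.2 := by rw [H769.iv_pt]; exact hZ
    exact hc.v_le X hX' Z hZ'
  · rw [hv]
    have e0 : nsq (0 : ι → ℝ) = 0 := by
      unfold H43.nsq
      rw [zero_dotProduct]
    rw [e0]
    exact sq_nonneg _

/-- **Mass of a cube, time `k + 1`.** -/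
theorem mass_cube (h : FDs q n ez F1 F2 F3 K x s r U g u v A b C Q1 Q2 Q3 v')
    (hc : Cls K x s r P0 U g u v) (hez : 0 ≤ ez) (hL : 0 ≤ q.Lm) (hs : 0 ≤ s) (hKn : K ≤ n)
    {k : ℕ} (hk : k < K) (i : ℤ) {a m : ℤ} (ha : a ∈ iv (K - k) (ix K x.1))
    (hm : m ∈ iv (K - k) (ix K x.2.2)) :
    ∑ y ∈ cb k (i, a, m), nsq (C y.1 (k + 1) y.2.2 y.2.1) ≤ 4 * ez * q.Lm * s * 8 ^ k := by
  have h1 := H816.mass_kF h.B2 hez hL hs hKn U.2.1 hc.U_v2 hk i ha hm
  have h2 : ∑ y ∈ cb k (i, a, m), nsq (C y.1 (k + 1) y.2.2 y.2.1) =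
      ∑ x0 ∈ iv k i, ∑ X ∈ iv k a, ∑ Z ∈ iv k m, nsq (C x0 (k + 1) Z X) := by
    unfold PL.cb
    rw [sum_product]
    refine sum_congr rfl fun x0 _ => ?_
    rw [sum_product]
  rw [h2]
  refine le_trans ?_ h1
  refine sum_le_sum fun x0 _ => sum_le_sum fun X hX => sum_le_sum fun Z hZ => ?_
  have hX' : X ∈ iv K (ix K x.1) := by
    rw [mem_iv] at ha hX ⊢
    rw [← ha, ← hX, PL.ix_ix, Nat.add_sub_cancel' hk.le]
  have hZ' : Z ∈ iv K (ix K x.2.2) := by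
    rw [mem_iv] at hm hZ ⊢
    rw [← hm, ← hZ, PL.ix_ix, Nat.add_sub_cancel' hk.le]
  exact mass_pt h hc (k + 1) x0 hX' hZ'

/-- **Masses at the points over a packed family of cubes, time `k + 1`**, one cell of `x0`. -/
theorem mass_S (h : FDs q n ez F1 F2 F3 K x s r U g u v A b C Q1 Q2 Q3 v')
    (hc : Cls K x s r P0 U g u v) (hez : 0 ≤ ez) (hL : 0 ≤ q.Lm) (hs : 0 ≤ s) (hKn : K ≤ n)
    {S Q : ℕ → Pt → Prop} {P : ℝ} (hQ : GPack Q K P)
    (hS : ∀ k < K, ∀ y, S k y → Q k (cx k y)) (t : ℤ) :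
    ∑ x0 ∈ iv K t, ∑ k ∈ range K, ∑ X ∈ iv K (cx K x).1, ∑ Z ∈ iv K (cx K x).2.2,
      (if S k (x0, X, Z) then nsq (C x0 (k + 1) Z X) else 0) ≤
      4 * ez * q.Lm * s * (P * 8 ^ K) := by
  have hT0 : 0 ≤ 4 * ez * q.Lm * s := by positivity
  have key := H782.static_any (S := S) hQ (t, (cx K x).1, (cx K x).2.2) (D := fun _ _ => False)
    (fun k hk y _ hy => hS k hk y hy) (f := fun k y => nsq (C y.1 (k + 1) y.2.2 y.2.1))
    (fun k y => nsq_nonneg _) (fun _ _ _ _ h => h.elim) hT0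
    (fun k hk y hy _ _ => by
      have hy' := mem_cb.1 hy
      have e1 : ix K y.2.1 = (cx K x).1 := congrArg (fun p : Pt => p.2.1) hy'
      have e2 : ix K y.2.2 = (cx K x).2.2 := congrArg (fun p : Pt => p.2.2) hy'
      refine mass_cube h hc hez hL hs hKn hk (ix k y.1) (a := ix k y.2.1) (m := ix k y.2.2) ?_ ?_
      · rw [mem_iv, PL.ix_ix, Nat.add_sub_cancel' hk.le]
        exact e1
      · rw [mem_iv, PL.ix_ix, Nat.add_sub_cancel' hk.le]
        exact e2)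
  refine le_trans (le_of_eq ?_) key
  have e : ∀ k, ∑ y ∈ cb K (t, (cx K x).1, (cx K x).2.2),
      (if S k y then nsq (C y.1 (k + 1) y.2.2 y.2.1) else 0) =
      ∑ x0 ∈ iv K t, ∑ X ∈ iv K (cx K x).1, ∑ Z ∈ iv K (cx K x).2.2,
        (if S k (x0, X, Z) then nsq (C x0 (k + 1) Z X) else 0) := by
    intro k
    unfold PL.cb
    rw [sum_product]
    refine sum_congr rfl fun x0 _ => ?_
    rw [sum_product]
  rw [sum_comm]
  exact sum_congr rfl fun k _ => (e k).symm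

/-- the same over the three cells of the root -/
theorem mass_rt (h : FDs q n ez F1 F2 F3 K x s r U g u v A b C Q1 Q2 Q3 v')
    (hc : Cls K x s r P0 U g u v) (hez : 0 ≤ ez) (hL : 0 ≤ q.Lm) (hs : 0 ≤ s) (hKn : K ≤ n)
    {S Q : ℕ → Pt → Prop} {P : ℝ} (hQ : GPack Q K P)
    (hS : ∀ k < K, ∀ y, S k y → Q k (cx k y)) :
    ∑ t ∈ rt (cx K x), ∑ x0 ∈ iv K t, ∑ k ∈ range K, ∑ X ∈ iv K (cx K x).1,
      ∑ Z ∈ iv K (cx K x).2.2, (if S k (x0, X, Z) then nsq (C x0 (k + 1) Z X) else 0) ≤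
      3 * (4 * ez * q.Lm * s * (P * 8 ^ K)) := by
  refine (sum_le_card_nsmul (rt (cx K x)) _ (4 * ez * q.Lm * s * (P * 8 ^ K))
    fun t _ => mass_S h hc hez hL hs hKn hQ hS t).trans (le_of_eq ?_)
  have h3 : (rt (cx K x)).card = 3 := by
    unfold H677.rt
    rw [Int.card_Icc]
    omega
  rw [h3, nsmul_eq_mul]
  norm_num

end

end Vale.Agent.P141.H386.MS
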