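import Vale.Agent.P141.H675.PhiX
import Vale.Agent.P141.H377.CapB
import Vale.Agent.P141.H297.BirthX
import Vale.Agent.P141.H8.BirthFD
import Vale.Agent.P141.H386.MassS

/-!
# P141, line (A), flow part, hub `x₁`: the births of `b` in the statement `PhiX`

`phBo : PartS H636.FDU PhBo`, over `H297.BirX.birth_x0`, the squares `BoT` of `H377.B1` and the
static masses of `H386.MS`.
-/

namespace Vale.Agent.P141.H386.PB

open Finset Matrix
open Vale.Agent.P141.PL (Pt iv ix cb cx mem_iv mem_cb)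
open Vale.Agent.P141.PL.H315 (Tri)
open Vale.Agent.P141.H43 (nsq nsq_nonneg)
open Vale.Agent.P141.H460 (GPack QPack)
open Vale.Agent.P141.H795 (ys)
open Vale.Agent.P141.H747 (shC RgS)
open Vale.Agent.P141.H677 (rt)
open Vale.Agent.P141.H677.Sk (Slt FamA FamV NumX FDs)
open Vale.Agent.P141.H297.Ch (es)
open Vale.Agent.P141.H297.BirX (birth_x0 st_k Sb Sb_born bornX gpack_bornX)
open Vale.Agent.P141.H585.PairRX (EX RR cR)
open Vale.Agent.P141.H377.B1 (BoT hBo_T BoT_q)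
open Vale.Agent.P141.H277.Phi
open Vale.Agent.P141.H186.PS
open Vale.Agent.P141.H675.PX

noncomputable section

open scoped Classical

set_option linter.unusedSectionVars false

section gen

variable {ι : Type} [Fintype ι] [DecidableEq ι]

/-- the energy at one point is quadratic -/
theorem es_smul (w ε : ℝ) (R : ℤ → ℤ → Matrix ι ι ℝ) (a : ℕ) (c c' : ℤ → ℤ → ι → ℝ) (x z : ℤ)
    (h : c' x z = w • c x z) : es ε R a c' x z = w ^ 2 * es ε R a c x z := by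
  unfold H297.Ch.es
  rw [h, mulVec_smul]
  simp only [Pi.smul_apply, smul_eq_mul, mul_pow, ← mul_sum]
  ring

/-- the family divided by `√ez` -/
theorem EX_Cz {K : ℕ} (M s : Pt) (S T : ℤ) (cc : ℕ → ℤ) (Bo : ℕ → ℤ → ℤ → Prop) (ε ez : ℝ)
    (hez : 0 < ez) (R : Slt ι) (C : FamV ι) (x0 : ℤ) :
    EX 0 K S T cc Bo ε (RR R s x0) (cR K M (Cz ez C) s x0) =
      ez⁻¹ * EX 0 K S T cc Bo ε (RR R s x0) (cR K M C s x0) := by
  have hw : ((√ez)⁻¹) ^ 2 = ez⁻¹ := by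
    rw [inv_pow, Real.sq_sqrt hez.le]
  unfold H585.PairRX.EX
  simp only [mul_sum]
  refine sum_congr rfl fun k _ => sum_congr rfl fun x _ => sum_congr rfl fun z _ => ?_
  rw [mul_ite, mul_zero, ← hw]
  have e := es_smul (√ez)⁻¹ ε (RR R s x0 (k + 1)) (k + 1) (cR K M C s x0 k)
    (cR K M (Cz ez C) s x0 k) x z (by
      unfold H585.PairRX.cR H747.shC H747.sft H277.Phi.Cz
      split_ifs
      · rfl
      · rw [smul_zero])
  rw [e]

end gen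

/-- the numbers -/
theorem num {q : H401.Num} {s r κ m N0 ez P : ℝ} {K : ℕ} (ht : 0 < q.t) (ht1 : q.t ≤ 1)
    (hc : 0 ≤ q.c) (hd : 0 < q.d) (hs : 0 < s) (hr : 1 ≤ r) (hκ : 1 ≤ κ) (hm : 0 < m)
    (hm1 : m ≤ 1) (hN : 0 ≤ N0) (hez : 0 < ez) (hP : 0 ≤ P) :
    ez⁻¹ * ((m ^ (1 / 4 : ℝ)) ^ 2 * ((3 + P) * (4 * ez * q.Lm * s * 8 ^ K)) +
      (3 + P) * (N0 * (ez * m))) ≤ 4 * (3 + P) * (N0 + MM q s r κ K) * √m := by
  have e1 : (m ^ (1 / 4 : ℝ)) ^ 2 = √m := by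
    rw [← Real.rpow_natCast (m ^ (1 / 4 : ℝ)), ← Real.rpow_mul hm.le, Real.sqrt_eq_rpow]
    norm_num
  have e2 : m ≤ √m := by
    have h4 : √m ≤ 1 := Real.sqrt_le_one.2 hm1
    have h5 := Real.mul_self_sqrt hm.le
    nlinarith [Real.sqrt_nonneg m]
  have e3 : q.Lm * s * 8 ^ K ≤ MM q s r κ K := by
    have h1 := lgS_one ht ht1 hr hκ
    have h2 : (1 : ℝ) ≤ lgS q r κ ^ 64 := one_le_pow₀ h1
    have h3 : q.Lm ≤ q.t ^ (-(64 * (q.c + q.d))) := by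
      unfold H401.Num.Lm
      exact Real.rpow_le_rpow_of_exponent_ge ht ht1 (by nlinarith)
    have h4 : 0 ≤ q.t ^ (-(64 * (q.c + q.d))) * s * 8 ^ K := by positivity
    unfold MM
    calc q.Lm * s * 8 ^ K ≤ q.t ^ (-(64 * (q.c + q.d))) * s * 8 ^ K := by gcongr
      _ = 1 * (q.t ^ (-(64 * (q.c + q.d))) * s * 8 ^ K) := (one_mul _).symm
      _ ≤ _ := mul_le_mul_of_nonneg_right h2 h4
  have e4 : ez⁻¹ * ((m ^ (1 / 4 : ℝ)) ^ 2 * ((3 + P) * (4 * ez * q.Lm * s * 8 ^ K)) +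
      (3 + P) * (N0 * (ez * m))) = (3 + P) * (4 * (q.Lm * s * 8 ^ K) * √m + N0 * m) := by
    rw [e1]
    field_simp
  rw [e4]
  have h0 : 0 ≤ √m := Real.sqrt_nonneg m
  have h5 : 4 * (q.Lm * s * 8 ^ K) * √m ≤ 4 * MM q s r κ K * √m := by gcongr
  have h6 : N0 * m ≤ 4 * N0 * √m := by
    have : N0 * m ≤ N0 * √m := mul_le_mul_of_nonneg_left e2 hN
    nlinarith [mul_nonneg hN h0]
  calc (3 + P) * (4 * (q.Lm * s * 8 ^ K) * √m + N0 * m)
      ≤ (3 + P) * (4 * MM q s r κ K * √m + 4 * N0 * √m) := by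
        refine mul_le_mul_of_nonneg_left (by linarith) (by linarith)
    _ = _ := by ring

/-- **The births of `b`.** -/
theorem phBo : PartS H636.FDU PhBo := by
  refine PartS.of_slot (fun q => 4 * (3 + 19278 * (q.cP + 2))) ?_
  intro ι _ _ q n ez F1 F2 F3 o K x s r U g u v A b' C' R κ E h j e _ _ _ _ _ _ _ _ hc _ hd _ _ _
    hcP _ _ ht ht1 _ _ _ _ hKn hs hr hcls hD hκ _ _ hS hh hj _
  intro hez m N0 hm hm1 hN0 hnum t' ht'
  obtain ⟨_, _, Q1, Q2, Q3, v', hF⟩ := hD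
  have hL1 : 1 ≤ q.Lm := H401.Num.Lm_ge ht ht1 hd.le
  have hL : 0 ≤ q.Lm := by linarith
  set M : Pt := cx K x with hM
  set Qb : ℕ → Pt → Prop := fun k m => H401.qB q U K Q3 k m.1 m.2.1 m.2.2 with hQb
  have hQ : QPack n Qb (q.cP + 2) := H8B.qpack_QD (H576.Dd_sst q.Lm U.1 K) hF.B3
  have hBoQ : ∀ x0 ∈ iv K t', ∀ k < K, ∀ n' m', BoT K M b' h x0 k n' m' →
      ∃ y x', ix (k + 1) y = n' ∧ ix k x' = m' ∧
        Qb k (ix k x0, ix k (x' + h.1), ix k (y + h.2.1)) := by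
    intro x0 _ k hk n' m' hb
    obtain ⟨x1, x2, e1, e2, _, _, h5⟩ := BoT_q hF hk hb
    exact ⟨x2, x1, e2, e1, h5⟩
  have hP : 0 ≤ 19278 * (q.cP + 2) := by positivity
  refine ⟨BoT K M b' h, fun x0 _ k _ x1 x2 hA => hBo_T K M b' h x0 k x1 x2 hA, ?_⟩
  -- the static masses
  have hMS : ∑ x0 ∈ iv K t', ∑ k ∈ range K, ∑ x ∈ iv K M.1, ∑ z ∈ iv K M.2.2,
      (if Sb K t' (BoT K M b' h) h j k (x0, x, z) then nsq (C' x0 k z x) else 0) ≤
      (3 + 19278 * (q.cP + 2)) * (4 * ez * q.Lm * s * 8 ^ K) := by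
    refine st_k (t := t') (C := C') (Y := 4 * ez * q.Lm * s * 8 ^ K) ?_ ?_ hP
      (gpack_bornX hQ hKn) (fun k _ y hy => Sb_born hj hBoQ k y hy)
    · have e0 : ∑ x0 ∈ iv K t', ∑ x ∈ iv K M.1, ∑ z ∈ iv K M.2.2, nsq (C' x0 0 z x) = 0 := by
        refine sum_eq_zero fun x0 _ => sum_eq_zero fun X _ => sum_eq_zero fun Z _ => ?_
        rw [MS.C_zero hF]
        unfold H43.nsq
        rw [zero_dotProduct]
      rw [e0]
      positivity
    · intro S Q P hP0 hG hSQ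
      refine (MS.mass_S hF hcls.toCls hez.le hL hs.le hKn hG hSQ t').trans ?_
      have h1 : 0 ≤ 4 * ez * q.Lm * s * 8 ^ K := by positivity
      calc 4 * ez * q.Lm * s * (P * 8 ^ K) = P * (4 * ez * q.Lm * s * 8 ^ K) := by ring
        _ ≤ (1 + P) * (4 * ez * q.Lm * s * 8 ^ K) :=
          mul_le_mul_of_nonneg_right (by linarith) h1
  have key := birth_x0 (C := C') hKn hnum ht' hj (by positivity : (0 : ℝ) ≤ q.cP + 2) hQ hBoQ hMS 0
    (M.1 - e.1) (M.2.2 - e.2.2) (m ^ (1 / 4 : ℝ))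
  have h7 : ∑ x0 ∈ iv K t', EX 0 K (M.1 - e.1) (M.2.2 - e.2.2)
      (fun k => ix k (ys (-x0) h) - j) (BoT K M b' h x0) (m ^ (1 / 4 : ℝ)) (RR R h x0)
      (cR K M C' h x0) ≤ (m ^ (1 / 4 : ℝ)) ^ 2 * ((3 + 19278 * (q.cP + 2)) *
        (4 * ez * q.Lm * s * 8 ^ K)) + (3 + 19278 * (q.cP + 2)) * (N0 * (ez * m)) := key
  have h8 : ∑ x0 ∈ iv K t', EX 0 K (M.1 - e.1) (M.2.2 - e.2.2)
      (fun k => ix k (ys (-x0) h) - j) (BoT K M b' h x0) (m ^ (1 / 4 : ℝ)) (RR R h x0)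
      (cR K M (Cz ez C') h x0) = ez⁻¹ * ∑ x0 ∈ iv K t', EX 0 K (M.1 - e.1) (M.2.2 - e.2.2)
      (fun k => ix k (ys (-x0) h) - j) (BoT K M b' h x0) (m ^ (1 / 4 : ℝ)) (RR R h x0)
      (cR K M C' h x0) := by
    rw [mul_sum]
    exact sum_congr rfl fun x0 _ => EX_Cz M h _ _ _ _ _ ez hez R C' x0
  rw [h8]
  refine (mul_le_mul_of_nonneg_left h7 (inv_nonneg.2 hez.le)).trans ?_
  refine (num ht ht1 hc hd hs hr hκ hm hm1 hN0 hez hP).trans ?_
  have hMM := MM_nonneg (K := K) ht ht1 hs hr hκ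
  have h9 : 4 * (3 + 19278 * (q.cP + 2)) ≤
      max 1 (4 * (3 + 19278 * ((wot q).cP + 2))) := le_max_right _ _
  have h10 : 0 ≤ √m := Real.sqrt_nonneg m
  gcongr

end

end Vale.Agent.P141.H386.PB
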